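import Vale.Agent.P366W19.Half
import Vale.Agent.P366M.Map
import Vale.Agent.P366M.Int
import Vale.Agent.P366N.Bd1

/-!
# P366W19: adapted charts and the measures of their faces
-/

open MeasureTheory Filter Topology Set Metric Function
open scoped ContDiff ENNReal
open Vale.Agent.P366.Stmt (E)
open Vale.Agent.P366 Vale.Agent.P366M Vale.Agent.P366N
open Vale.Agent.P366N.St (face)
open Vale.Agent.P366D (pl pb)

noncomputable section

namespace Vale.Agent.P366W19

variable {k : ℕ} {M : Type} [Mf0 (k + 1) M] {G : M → ℝ} {e e' : Ch (k + 1) M} {s s' : Set M}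
  {g : Fld (k + 1) M}

/-- on `s` the chart `e` is adapted to the region `{0 ≤ G}` -/
structure Ad (G : M → ℝ) (e : Ch (k + 1) M) (s : Set M) : Prop where
  mem : e ∈ At M
  opn : IsOpen s
  sub : s ⊆ e.source
  eq : (∀ z ∈ s, e z 0 = G z) ∨ ∀ z ∈ s, 0 < G z ∧ 0 < e z 0

theorem Ad.le (h : Ad G e s) {z : M} (hz : z ∈ s) : 0 ≤ G z ↔ 0 ≤ e z 0 :=
  h.eq.elim (fun k => k z hz ▸ Iff.rfl) fun k => iff_of_true (k z hz).1.le (k z hz).2.le

theorem Ad.zero (h : Ad G e s) {z : M} (hz : z ∈ s) : G z = 0 ↔ e z 0 = 0 :=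
  h.eq.elim (fun k => k z hz ▸ Iff.rfl) fun k => iff_of_false (k z hz).1.ne' (k z hz).2.ne'

theorem exists_ad (hG : Smooth G) (hr : ∀ x, G x = 0 → ∃ i, pd i G x ≠ 0) {p : M}
    (hp : 0 ≤ G p) : ∃ e s, Ad G e s ∧ p ∈ s := by
  have hc : Continuous G := cont_of_loc fun e he => (hG e he).continuous
  rcases hp.eq_or_lt with h0 | h0
  · obtain ⟨i, hi⟩ := hr p h0.symm
    have h1 := hG _ (ch_mem p)
    let f : E (k + 1) → E (k + 1) := fun y =>
      WithLp.toLp 2 fun j => if j = 0 then loc (ch p) G y else y (Equiv.swap 0 i j)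
    have h2 : ContDiff ℝ ∞ f := contDiff_euclidean.2 fun j => by
      by_cases hj : j = 0
      · simpa only [f, hj, if_true] using h1
      · simpa only [f, hj, if_false] using P366Z.contDiff_coord _
    have h3 := h2.differentiable (by simp) (pt p)
    have h4 : ∀ v j, fderiv ℝ f (pt p) v j = ∑ m, v m * Stmt.pd m (fun y => f y j) (pt p) :=
      fun v j => by
        rw [← P366Z.fderiv_eq_sum (diff_coord h3 j)]
        exact (DFunLike.congr_fun ((EuclideanSpace.proj (𝕜 := ℝ) j).hasFDerivAt.comp _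
          h3.hasFDerivAt).fderiv v).symm
    obtain ⟨L, hL⟩ := P366N.exists_equiv (fderiv ℝ f (pt p)) ((injective_iff_map_eq_zero _).2
      fun v hv => by
        have l1 : ∀ m, m ≠ i → v m = 0 := fun m hm => by
          have l2 : Equiv.swap 0 i m ≠ 0 := fun l => hm (by
            rw [← Equiv.swap_apply_self 0 i m, l, Equiv.swap_apply_left])
          have := h4 v (Equiv.swap 0 i m)
          simpa [hv, f, l2, P366Z.pd_coord] using this.symm
        have l3 := h4 v 0
        rw [hv, Finset.sum_eq_single i (fun m _ hm => by rw [l1 m hm, zero_mul]) (by simp)] at l3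
        have l4 : v i = 0 := (mul_eq_zero.1 l3.symm).resolve_right (by
          simp only [f, if_true]
          exact hi)
        ext m
        by_cases hm : m = i
        · rw [hm, l4]; rfl
        · exact l1 m hm)
    obtain ⟨θ, t1, -, t2, t3⟩ := locdiff isOpen_univ (mem_univ (pt p))
      (fun _ _ => h2.contDiffAt) L (hL ▸ h3.hasFDerivAt)
    obtain ⟨e, e1, e2, e3, e4, r, r0, e5, e6⟩ := exists_germ
      ((P366D.mx_of_At (ch_mem p)).trans t3) (p := p) ⟨mem_ch p, t1⟩ univ_mem
    refine ⟨e, e.source ∩ e ⁻¹' ball ((ch p).trans θ p) r, ⟨e1, e.isOpen_inter_preimage isOpen_ball, inter_subset_left,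
      Or.inl fun z hz => ?_⟩, e2, by rw [mem_preimage, e4]; exact mem_ball_self r0⟩
    have l1 := ((ch p).trans θ).right_inv (e5 hz.2)
    rw [← e6 _ hz.2, e.left_inv hz.1] at l1
    rw [← l1]
    show θ (ch p z) 0 = _
    rw [t2]
    simp only [f, if_true, loc, (ch p).left_inv (e3 hz.1).2.1]
  · obtain ⟨e, e1, e2, e3⟩ := exists_affine (ch_mem p) (pt p - EuclideanSpace.single 0 1)
      (ContinuousLinearEquiv.refl ℝ _)
    have l1 : e p = EuclideanSpace.single 0 1 := by
      rw [← right_inv e1 (EuclideanSpace.single 0 1), e2]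
      simp
    exact ⟨e, _, ⟨e1, (e.isOpen_inter_preimage (isOpen_lt continuous_const cont0)).inter
      (isOpen_lt continuous_const hc), fun _ hz => hz.1.1, Or.inr fun z hz => ⟨hz.2, hz.1.2⟩⟩,
      ⟨e3 ▸ mem_ch p, by simp [l1]⟩, h0⟩

/-- the parametrisation of the face -/
def fc (e : Ch (k + 1) M) (z : E k) : M := e.symm (face z)

/-- the density of the induced metric -/
def hd (g : Fld (k + 1) M) (e : Ch (k + 1) M) (z : E k) : ℝ := P366Z.dens (pl (fc e) g) z

/-- the measure of the face -/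
def sg (g : Fld (k + 1) M) (e : Ch (k + 1) M) (s : Set M) : Measure M :=
  (((volume : Measure (E k)).withDensity fun z => ENNReal.ofReal (hd g e z)).restrict
    (fc e ⁻¹' s)).map (fc e)

theorem cont_fc (he : e ∈ At M) : Continuous (fc e) := (cont_symm he).comp cd_face.continuous

theorem smP_fc (he : e ∈ At M) (z : E k) : P366D.SmP (fc e) z :=
  smP_symm_comp he cd_face.contDiffAt

theorem pl_fc (he : e ∈ At M) (z : E k) (a b : Fin k) :
    pl (fc e) g z a b = rep e g (face z) a.succ b.succ := by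
  rw [← pb_face (rep e g), ← pl_symm_comp he cd_face.contDiffAt]
  rfl

theorem cont_hd (hg : Met g) (he : e ∈ At M) : Continuous (hd g e) := by
  refine Real.continuous_sqrt.comp (Continuous.matrix_det (continuous_matrix fun a b => ?_))
  simp only [Stmt.mat, pl_fc he]
  exact (hg.sm e he _ _).continuous.comp cd_face.continuous

theorem sg_apply (h : Ad G e s) {A : Set M} (hA : MeasurableSet A) :
    sg g e s A = ∫⁻ z in fc e ⁻¹' (A ∩ s), ENNReal.ofReal (hd g e z) := by
  have hm := (cont_fc h.mem).measurable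
  rw [sg, Measure.map_apply hm hA, Measure.restrict_apply (hm hA),
    withDensity_apply _ ((hm hA).inter (hm h.opn.measurableSet)), preimage_inter]

theorem Ad.fc_zero (h : Ad G e s) {z : E k} (hz : fc e z ∈ s) : G (fc e z) = 0 :=
  (h.zero hz).2 (by rw [fc, right_inv h.mem]; rfl)

theorem dens_pb (φ : E k → E k) (T : Stmt.Field k) (z : E k) :
    P366Z.dens (pb φ T) z = |(jac φ z).det| * P366Z.dens T (φ z) := by
  unfold P366Z.dens
  rw [P366D.mat_pb, Matrix.det_mul, Matrix.det_mul, Matrix.det_transpose, ← Real.sqrt_sq_eq_abs,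
    ← Real.sqrt_mul (sq_nonneg _)]
  congr 1
  ring

/-- **the measures of the faces are consistent** -/
theorem sg_le (h : Ad G e s) (h' : Ad G e' s') : (sg g e s).restrict s' ≤ sg g e' s' := by
  refine Measure.le_iff.2 fun A hA => ?_
  have hm := (cont_fc h.mem).measurable
  have h0 := (hA.inter h'.opn.measurableSet).inter h.opn.measurableSet
  let T : E k → E k := fun z => tl (e' (fc e z))
  have h1 : ∀ z, fc e z ∈ s' ∩ s → fc e' (T z) = fc e z := fun z hz => by
    rw [fc, face_tl ((h'.zero hz.1).1 (h.fc_zero hz.2)), e'.left_inv (h'.sub hz.1)]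
  have h2 : ∀ z, fc e z ∈ s' → DifferentiableAt ℝ T z := fun z hz =>
    (cd_tl.contDiffAt.comp z ((smP_fc h.mem z).cd h'.mem (h'.sub hz))).differentiableAt (by simp)
  rw [Measure.restrict_apply hA, sg_apply h (hA.inter h'.opn.measurableSet), sg_apply h' hA]
  refine le_trans (le_of_eq ?_) (lintegral_mono_set (s := T '' (fc e ⁻¹' (A ∩ s' ∩ s))) ?_)
  · rw [lintegral_image_eq_lintegral_abs_det_fderiv_mul volume (hm h0)
      (fun z hz => (h2 z hz.1.2).hasFDerivAt.hasFDerivWithinAt) fun a ha b hb hab => by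
        have := symm_inj h.mem ((h1 a ⟨ha.1.2, ha.2⟩).symm.trans (hab ▸ h1 b ⟨hb.1.2, hb.2⟩))
        rw [← tl_face a, this, tl_face]]
    refine setLIntegral_congr_fun (hm h0) fun z hz => ?_
    have h3 : fc e =ᶠ[𝓝 z] fun w => fc e' (T w) :=
      ((cont_fc h.mem).continuousAt.eventually ((h'.opn.inter h.opn).mem_nhds
        ⟨hz.1.2, hz.2⟩)).mono fun w hw => (h1 w hw).symm
    have h4 : hd g e z = P366Z.dens (pb T (pl (fc e') g)) z := by
      simp only [hd, P366Z.dens, Stmt.mat]
      rw [P366D.pl_congr h3 (S := g) rfl, (smP_fc h'.mem _).pl_comp (h2 z hz.1.2)]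
    beta_reduce
    rw [h4, dens_pb, ENNReal.ofReal_mul (abs_nonneg _), det_fderiv (h2 z hz.1.2)]
    rfl
  · rintro _ ⟨z, hz, rfl⟩
    rw [mem_preimage, h1 z ⟨hz.1.2, hz.2⟩]
    exact hz.1

end Vale.Agent.P366W19
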