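import Vale.Agent.P366W19.Ad
import Vale.Agent.P366M.Ext

/-!
# P366W19: the flux of the normal field is the area
-/

open MeasureTheory Filter Topology Set Metric Function
open scoped ContDiff ENNReal
open Vale.Agent.P366.Stmt (E)
open Vale.Agent.P366 Vale.Agent.P366M Vale.Agent.P366N
open Vale.Agent.P366N.St (face)
open Vale.Agent.P366D (pl pb)

noncomputable section

namespace Vale.Agent.P366W19

variable {k : ℕ}

section L0

variable {M : Type} [Mf0 (k + 1) M] {G χ : M → ℝ} {e : Ch (k + 1) M} {s : Set M}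
  {g : Fld (k + 1) M} {V : Fin (k + 1) → M → ℝ}

theorem dv_out {x : M} (hx : x ∉ tsupport χ) : dv g (fun i y => χ y * V i y) x = 0 := by
  rw [dv_congr (Y := fun i y => 0 * V i y) fun i => (notMem_tsupport_iff_eventuallyEq.1 hx).mono
    fun z hz => by simp only [hz, Pi.zero_apply], dv_const_mul, zero_mul]

/-- the divergence theorem in an adapted chart -/
theorem flux (hg : Met g) (h : Ad G e s) (hG : Continuous G) (hχ : Smooth χ) {B : Set (E (k + 1))}
    (hB : IsCompact B) (h1 : tsupport χ ⊆ s ∩ e.symm '' B) (hV : CV ∞ V) :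
    ∫ x in {x | 0 ≤ G x}, dv g (fun i y => χ y * V i y) x ∂vol g =
      -∫ z, P366Z.dens (rep e g) (face z) * (χ (fc e z) * repV e V 0 (face z)) := by
  have hZ : CV ∞ fun i y => χ y * V i y := CV.smul hχ hV
  have h2 := half_div (W := fun i y => P366Z.dens (rep e g) y * repV e (fun i y => χ y * V i y) i y)
    (fun i => ContDiff.mul (ContDiff.of_le (hg.rep h.mem).sm_dens one_le_oo)
      ((hZ e h.mem i).of_le one_le_oo)) fun i => by
        rw [repV_smul]
        exact (supp_loc h.mem hB fun x hx => (h1 (subset_tsupport _ hx)).2).mul_right.mul_left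
  refine Eq.trans ?_ (h2.trans (by rw [repV_smul]; rfl))
  rw [← integral_indicator (isClosed_le continuous_const hG).measurableSet,
    ← integral_indicator (isClosed_le continuous_const cont0).measurableSet,
    integral_chart hg h.mem fun x hx => by
      rw [indicator_apply_eq_zero.2 fun _ => dv_out fun l => hx (h.sub (h1 l).1)]]
  refine integral_congr_ae (.of_forall fun y => ?_)
  have h3 : ∑ i, Stmt.pd i (fun y => P366Z.dens (rep e g) y *
      repV e (fun i y => χ y * V i y) i y) y =
      P366Z.dens (rep e g) y * dv g (fun i y => χ y * V i y) (e.symm y) := by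
    rw [← dv_rep hg h.mem (hZ.dv (by simp) _), P366Z.dv,
      mul_div_cancel₀ _ ((hg.rep h.mem).dens_pos y).ne']
  by_cases hy : e.symm y ∈ s
  · have h4 := h.le hy
    rw [right_inv h.mem] at h4
    simp only [indicator, mem_ofPred_eq, h3, h4, smul_eq_mul, mul_ite, mul_zero]
  · simp only [indicator, h3, dv_out fun l => hy (h1 l).1, ite_self, smul_zero, mul_zero]

/-- the inner normal field, extended -/
def nf (g : Fld (k + 1) M) (G : M → ℝ) (i : Fin (k + 1)) (x : M) : ℝ :=
  -gr g G i x / √(ip g G G x + G x ^ 2)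

theorem den_pos (hg : Met g) (hr : ∀ x, G x = 0 → ∃ i, pd i G x ≠ 0) (x : M) :
    0 < ip g G G x + G x ^ 2 := by
  by_cases h : G x = 0
  · obtain ⟨i, hi⟩ := hr x h
    exact add_pos_of_pos_of_nonneg (hg.up_pos x (ξ := fun i => pd i G x) fun l => hi (congrFun l i))
      (sq_nonneg _)
  · exact add_pos_of_nonneg_of_pos (hg.ip_nonneg G x) (by positivity)

theorem cv_nf (hg : Met g) (hG : Smooth G) (hr : ∀ x, G x = 0 → ∃ i, pd i G x ≠ 0) :
    CV ∞ (nf g G) := CV.div (hg.sm_gr hG).neg
  (CD.sqrt (CD.add (hg.sm_ip hG hG) (CD.pow hG 2)) fun x => (den_pos hg hr x).ne')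
  fun x => (Real.sqrt_pos.2 (den_pos hg hr x)).ne'

theorem quad_gr (hg : Met g) (x : M) :
    ∑ i, ∑ j, g x i j * gr g G i x * gr g G j x = ip g G G x := by
  have h : (mat g x).mulVec (fun j => gr g G j x) = fun j => pd j G x := by
    show (mat g x).mulVec ((mat g x)⁻¹.mulVec fun j => pd j G x) = _
    rw [Matrix.mulVec_mulVec, Matrix.mul_nonsing_inv _ (hg.det_pos x).ne'.isUnit, Matrix.one_mulVec]
  rw [ip_eq_gr]
  refine Finset.sum_congr rfl fun i _ => ?_
  rw [← congrFun h i, Matrix.mulVec, dotProduct, Finset.sum_mul]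
  exact Finset.sum_congr rfl fun j _ => mul_right_comm _ _ _

theorem nf_le (hg : Met g) (hr : ∀ x, G x = 0 → ∃ i, pd i G x ≠ 0) {c : ℝ} (h0 : 0 ≤ c)
    (h1 : c ≤ 1) (x : M) : ∑ i, ∑ j, g x i j * (c * nf g G i x) * (c * nf g G j x) ≤ 1 := by
  have h := den_pos hg hr x
  have e : ∀ i j, g x i j * (c * nf g G i x) * (c * nf g G j x) =
      c ^ 2 / (ip g G G x + G x ^ 2) * (g x i j * gr g G i x * gr g G j x) := fun i j => by
    rw [nf, nf]
    nth_rw 3 [← Real.mul_self_sqrt h.le]
    have := (Real.sqrt_pos.2 h).ne'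
    field_simp
  simp only [e, ← Finset.mul_sum, quad_gr hg]
  rw [div_mul_eq_mul_div, div_le_one h]
  nlinarith [hg.ip_nonneg G x, sq_nonneg (G x), mul_le_of_le_one_left (hg.ip_nonneg G x)
    (pow_le_one₀ (n := 2) h0 h1)]

/-- the flux density is the density of the induced metric -/
theorem flux_dens (hg : Met g) (h : Ad G e s) (hG : Smooth G) {z : E k} (hz : fc e z ∈ s) :
    -(P366Z.dens (rep e g) (face z) * repV e (nf g G) 0 (face z)) = hd g e z := by
  have h0 := h.fc_zero hz
  have h1 : loc e G =ᶠ[𝓝 (face z)] fun y => y 0 :=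
    ((cont_symm h.mem).continuousAt.eventually (h.opn.mem_nhds hz)).mono fun y hy => by
      have := (h.eq.resolve_right fun l => (l _ hz).1.ne' h0) _ hy
      rwa [right_inv h.mem, eq_comm] at this
  have h2 : ∀ j, Stmt.pd j (loc e G) (face z) = if j = 0 then 1 else 0 := fun j => by
    rw [P366Z.pd_congr h1, P366Z.pd_coord]
  have hm := hg.rep h.mem
  have h3 : 0 < Stmt.up (rep e g) 0 0 (face z) := by
    simpa [Pi.single_apply] using hm.up_pos (face z) (ξ := Pi.single 0 1) (by simp)
  have h4 : repV e (nf g G) 0 (face z) = -√(Stmt.up (rep e g) 0 0 (face z)) := by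
    have l1 : repV e (fun i x => -gr g G i x) 0 (face z) = -repV e (gr g G) 0 (face z) := by
      simp only [repV, mul_neg, Finset.sum_neg_distrib]
    unfold nf
    rw [repV_div]
    beta_reduce
    rw [l1, loc, ← ip_rep h.mem g (hG.diff _) (hG.diff _), ← gr_rep h.mem g (hG.diff _),
      show G (e.symm (face z)) = 0 from h0]
    simp [P366Z.gr, P366Z.ip, h2, neg_div, Real.div_sqrt]
  rw [h4, mul_neg, neg_neg, P366Z.dens, ← Real.sqrt_mul (hm.det_pos _).le, Stmt.up,
    det_block (hm.det_pos _).ne', hd, P366Z.dens]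
  congr 2
  ext a b
  exact (pl_fc h.mem z a b).symm

theorem flux_eq (hg : Met g) (h : Ad G e s) (hG : Smooth G)
    (hr : ∀ x, G x = 0 → ∃ i, pd i G x ≠ 0) (hχ : Smooth χ) (h0 : ∀ x, 0 ≤ χ x)
    {B : Set (E (k + 1))} (hB : IsCompact B) (h1 : tsupport χ ⊆ s ∩ e.symm '' B) :
    0 ≤ ∫ x in {x | 0 ≤ G x}, dv g (fun i y => χ y * nf g G i y) x ∂vol g ∧
    ∫⁻ x, ENNReal.ofReal (χ x) ∂sg g e s =
      ENNReal.ofReal (∫ x in {x | 0 ≤ G x}, dv g (fun i y => χ y * nf g G i y) x ∂vol g) := by
  have h2 : ∫ x in {x | 0 ≤ G x}, dv g (fun i y => χ y * nf g G i y) x ∂vol g =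
      ∫ z, hd g e z * χ (fc e z) := by
    rw [flux hg h hG.cont hχ hB h1 (cv_nf hg hG hr), ← integral_neg]
    refine integral_congr_ae (.of_forall fun z => ?_)
    by_cases hz : fc e z ∈ s
    · simp only [← flux_dens hg h hG hz]
      ring
    · simp [image_eq_zero_of_notMem_tsupport fun l => hz (h1 l).1]
  have h3 : ∀ z, 0 ≤ hd g e z * χ (fc e z) := fun z => mul_nonneg (P366Z.dens_nonneg _ _) (h0 _)
  have hc := cont_fc h.mem
  have h4 : HasCompactSupport fun z => χ (fc e z) :=
    (supp_loc h.mem hB fun x hx => (h1 (subset_tsupport _ hx)).2).comp_isClosedEmbedding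
      (LeftInverse.isClosedEmbedding (f := tl) tl_face cd_tl.continuous cd_face.continuous)
  rw [h2]
  refine ⟨integral_nonneg h3, ?_⟩
  rw [ofReal_integral_eq_lintegral_ofReal (f := fun z => hd g e z * χ (fc e z))
    (((cont_hd hg h.mem).mul
    (hχ.cont.comp hc)).integrable_of_hasCompactSupport h4.mul_left) (.of_forall h3), sg,
    lintegral_map hχ.cont.measurable.ennreal_ofReal hc.measurable,
    setLIntegral_eq_of_support_subset (fun z hz => by_contra fun l => hz (by
      rw [image_eq_zero_of_notMem_tsupport fun l' => l (h1 l').1, ENNReal.ofReal_zero])),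
    lintegral_withDensity_eq_lintegral_mul _ (cont_hd hg h.mem).measurable.ennreal_ofReal
      (g := fun z => ENNReal.ofReal (χ (fc e z))) (hχ.cont.comp hc).measurable.ennreal_ofReal]
  exact lintegral_congr fun z => (ENNReal.ofReal_mul (P366Z.dens_nonneg _ _)).symm

end L0

variable {M : Type} [Mfe (k + 1) M] {G : M → ℝ}

theorem cpt_zero (hG : IsExt G) : IsCompact {x | G x = 0} := by
  obtain ⟨R, hR⟩ := hG.2.2.2
  exact (Mfs.cpt R).of_isClosed_subset (isClosed_eq hG.1.cont continuous_const)
    fun x hx => not_lt.1 fun l => (hR x l).ne' hx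

/-- **a measure which dominates the measures of the faces** -/
theorem exists_mu (X : Exterior (k + 1) M) (hG : IsExt G) : ∃ μ : Measure M,
    (∀ e s, Ad G e s → sg X.g e s ≤ μ) ∧ μ univ ≤ X.area G := by
  classical
  have hg := X.met
  have : Nonempty (Ch (k + 1) M) := ⟨ch (Classical.arbitrary M)⟩
  choose! c s h1 h2 using fun p (hp : G p = 0) => exists_ad hG.1 hG.2.1 hp.ge
  obtain ⟨t, χ, a1, a2, a3, a4, a5⟩ := exists_pou (cpt_zero hG)
    (fun p => if G p = 0 then s p ∩ (c p).symm '' closedBall (c p p) 1 else {x | G x ≠ 0})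
    fun p => by
      split_ifs with hp
      · refine inter_mem ((h1 p hp).opn.mem_nhds (h2 p hp)) ?_
        have := image_mem_map (m := (c p).symm) (closedBall_mem_nhds (c p p) one_pos)
        rwa [map_symm (h1 p hp).mem, (c p).left_inv ((h1 p hp).sub (h2 p hp))] at this
      · exact (isOpen_ne_fun hG.1.cont continuous_const).mem_nhds hp
  set t' := t.filter fun p => G p = 0 with ht
  have b0 : ∀ p ∈ t', G p = 0 := fun p hp => (Finset.mem_filter.1 hp).2
  have b1 : ∀ p ∈ t', tsupport (χ p) ⊆ s p ∩ (c p).symm '' closedBall (c p p) 1 := fun p hp => by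
    simpa only [b0 p hp, if_true] using a2 p
  have b2 : ∀ x, G x = 0 → ∑ p ∈ t', χ p x = 1 := fun x hx => by
    rw [← (a5 x hx).self_of_nhds]
    refine Finset.sum_subset (Finset.filter_subset _ _) fun p hp hp' => by_contra fun l => ?_
    have := a2 p (subset_tsupport _ l)
    rw [if_neg fun k => hp' (Finset.mem_filter.2 ⟨hp, k⟩)] at this
    exact this hx
  have b3 : ∀ p, Measurable fun x => ENNReal.ofReal (χ p x) := fun p =>
    (a1 p).cont.measurable.ennreal_ofReal
  have b4 : ∀ p ∈ t', HasCompactSupport (χ p) := fun p hp =>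
    (cpt_image (h1 p (b0 p hp)).mem (isCompact_closedBall _ _)).of_isClosed_subset
      (isClosed_tsupport _) fun x hx => (b1 p hp hx).2
  have b5 := fun p hp => flux_eq hg (h1 p (b0 p hp)) hG.1 hG.2.1 (a1 p) (a3 p)
    (isCompact_closedBall _ _) (b1 p hp)
  have hV := cv_nf hg hG.1 hG.2.1
  refine ⟨∑ p ∈ t', (sg X.g (c p) (s p)).withDensity fun x => ENNReal.ofReal (χ p x),
    fun e u h => Measure.le_iff.2 fun A hA => ?_, ?_⟩
  · have l1 : ∀ᵐ x ∂sg X.g e u, (1 : ℝ≥0∞) = ∑ p ∈ t', ENNReal.ofReal (χ p x) := by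
      refine (ae_map_iff (cont_fc h.mem).measurable.aemeasurable
        (measurableSet_eq_fun measurable_const (Finset.measurable_fun_sum _ fun p _ => b3 p))).2 ?_
      filter_upwards [ae_restrict_mem ((cont_fc h.mem).measurable h.opn.measurableSet)] with z hz
      rw [← ENNReal.ofReal_sum_of_nonneg fun p _ => a3 p _, b2 _ (h.fc_zero hz), ENNReal.ofReal_one]
    rw [← setLIntegral_one, lintegral_congr_ae (ae_restrict_of_ae l1),
      lintegral_finsetSum _ fun p _ => b3 p, Measure.finsetSum_apply]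
    refine Finset.sum_le_sum fun p hp => ?_
    rw [withDensity_apply _ hA, ← setLIntegral_eq_of_support_subset (s := s p)
      (f := fun x => ENNReal.ofReal (χ p x)) (fun z hz => by_contra fun l => hz (by
        beta_reduce
        rw [image_eq_zero_of_notMem_tsupport fun l' => l (b1 p hp l').1, ENNReal.ofReal_zero])),
      Measure.restrict_comm (h1 p (b0 p hp)).opn.measurableSet]
    exact lintegral_mono' (Measure.restrict_mono_measure (sg_le h (h1 p (b0 p hp))) A) le_rfl
  · have hT := (isClosed_le continuous_const hG.1.cont).measurableSet (s := {x | 0 ≤ G x})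
    obtain ⟨R, hR⟩ := (t'.isCompact_biUnion b4).exists_bound_of_continuousOn
      (f := fun x : M => px x) (cont_of_loc fun e he => (Mfs.sm_px e he).continuous).continuousOn
    refine le_sSup_of_le ⟨fun i x => ∑ p ∈ t', χ p x * nf X.g G i x,
      ⟨CV.sum fun p _ => CV.smul (a1 p) hV, ⟨R, fun x hx i => Finset.sum_eq_zero fun p hp => ?_⟩,
        fun x _ => ?_⟩, rfl⟩ (le_of_eq ?_)
    · rw [image_eq_zero_of_notMem_tsupport fun l => hx.not_ge (hR x (mem_biUnion hp l)), zero_mul]
    · simp only [← Finset.sum_mul]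
      exact nf_le hg hG.2.1 (Finset.sum_nonneg fun p _ => a3 p x) ((Finset.sum_le_sum_of_subset_of_nonneg
        (Finset.filter_subset _ _) fun p _ _ => a3 p x).trans (a4 x)) x
    · rw [Measure.finsetSum_apply, Finset.sum_congr rfl fun p hp => by
        rw [withDensity_apply _ MeasurableSet.univ, Measure.restrict_univ, (b5 p hp).2],
        ← ENNReal.ofReal_sum_of_nonneg fun p hp => (b5 p hp).1, ← integral_finsetSum _ fun p hp =>
          (hg.integrable_supp (hg.cont_dv ((CV.smul (a1 p) hV).of_le one_le_oo))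
            ((b4 p hp).mono' fun x hx => by_contra fun l => hx (dv_out l))).integrableOn,
        ← integral_indicator hT, ← integral_indicator hT, hg.integral_vol]
      congr 2
      funext x
      rw [← indicator_mul_left]
      congr 1
      funext y
      rw [hg.dv_sum t' fun p => (CV.smul (a1 p) hV).dv (by simp) y]

end Vale.Agent.P366W19
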