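import Vale.Agent.P366W19.Reg
import Vale.Agent.P366W19.Flux
import Vale.Agent.P366SB.Tr

/-!
# P366W19: the regions are enclosing cuts; their areas
-/

open MeasureTheory Filter Topology Set Metric Function Manifold
open scoped ContDiff ENNReal
open Vale.Agent.P366.Stmt (E)
open Vale.Agent.P366 Vale.Agent.P366M Vale.Agent.P366N
open Vale.Agent.P366N.St (face)

noncomputable section

namespace Vale.Agent.P366W19

variable {k : ℕ}

theorem theta_half {G G' L L' : Stmt.Field (k + 1)} {u : E (k + 1) → ℝ} {a : E (k + 1)}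
    (ha : a ∈ Hs (k + 1)) (h1 : ∀ i j, Stmt.Smooth fun y => G y i j)
    (h2 : ∀ i j, Stmt.Smooth fun y => G' y i j) (hG : G =ᶠ[𝓝[Hs (k + 1)] a] G') (hL : L a = L' a) :
    Stmt.thetaPlus G L u a = Stmt.thetaPlus G' L' u a := by
  have h3 : ∀ i j l, Stmt.pd l (fun y => G y i j) a = Stmt.pd l (fun y => G' y i j) a :=
    fun i j l => by
      have d := (h1 i j).differentiable (by simp) a
      have d' := (h2 i j).differentiable (by simp) a
      rw [P366Z.pd_eq d, P366Z.pd_eq d', fderiv_Hs ha (hG.mono fun y hy => by simp only [hy]) d d']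
  simp only [Stmt.thetaPlus, Stmt.trS, Stmt.tr, Stmt.nrm, Stmt.covNorm, Stmt.hess, Stmt.chr,
    Stmt.up, Stmt.mat, hG.self_of_nhdsWithin ha, hL, h3]

variable {M : Type} [Mfe (k + 1) M] {G : M → ℝ} {Ω : Type} [TopologicalSpace Ω]
  [ChartedSpace (EuclideanHalfSpace (k + 1)) Ω] [IsManifold (𝓡∂ (k + 1)) ∞ Ω] {κ : Ω → M}
  {D : St.Data (k + 1) Ω} {X : Exterior (k + 1) M} (h : Pk D.old κ X) (hG : IsExt G)

include h hG

omit [IsManifold (𝓡∂ (k + 1)) ∞ Ω] hG in
theorem em (hs : ∀ z, 0 ≤ G z → 0 ≤ X.F z) : Em G fun x : {x | 0 ≤ G (κ x)} => κ x :=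
  ⟨h.mod.emb.isEmbedding.comp .subtypeVal, fun z => ⟨fun l => by
    obtain ⟨x, rfl⟩ := (h.rng z).1 (hs z l)
    exact ⟨⟨x, l⟩, rfl⟩, fun ⟨x, hx⟩ => hx ▸ x.2⟩⟩

section

variable [ChartedSpace (EuclideanHalfSpace (k + 1)) {x | 0 ≤ G (κ x)}]
  [IsManifold (𝓡∂ (k + 1)) ∞ {x | 0 ≤ G (κ x)}] {c : {x | 0 ≤ G (κ x)} → Ch (k + 1) M}
  {s : {x | 0 ≤ G (κ x)} → Set M} (H : Rg G (fun x : {x | 0 ≤ G (κ x)} => κ x) c s)
include H

theorem Rg.encl (hs : ∀ z, 0 ≤ G z → 0 ≤ X.F z) : D.Encl {x | 0 ≤ G (κ x)} := by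
  obtain ⟨-, -, h1, h2, R, h3⟩ := h.cut hG hs
  have h4 : IsClosed {x | 0 ≤ G (κ x)} :=
    isClosed_le continuous_const (hG.1.cont.comp h.mod.emb.continuous)
  refine ⟨inferInstance, H.imm h.mod, h1, h4, ?_, fun x hx l => hx ((H.bd x).2
    (le_antisymm (h2 _ l) x.2)), R, fun y hy => (h3 y hy).le⟩
  rw [show St.bdry (k + 1) {x | 0 ≤ G (κ x)} = _ ⁻¹' {z | G z = 0} from Set.ext H.bd]
  exact (h.mod.emb.comp h4.isClosedEmbedding_subtypeVal).isCompact_preimage (cpt_zero hG)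

omit hG in
theorem Rg.trapped (hG : Smooth G) (ht : ∀ z, G z = 0 → thetaPlus X.g X.K G z ≤ 0) :
    D.TrappedCut {x | 0 ≤ G (κ x)} := fun x hx G' L' h1 h2 => by
  have l0 := (H.bd x).1 hx
  have hc := H.adp (mem_extChartAt_source x)
  have l1 := extChartAt_target_mem_nhdsWithin (I := 𝓡∂ (k + 1)) x
  have l2 : G' =ᶠ[𝓝[Hs (k + 1)] (ec (k + 1) x x)] rep (c x) X.g := by
    filter_upwards [h1.2, l1] with y e1 e2 using e1.trans (H.sub h.mod h.g e2)
  have l3 : L' (ec (k + 1) x x) = rep (c x) X.K (ec (k + 1) x x) :=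
    (h2.2.self_of_nhdsWithin (ec_mem x x)).trans (H.sub h.mod h.K (mem_extChartAt_target x))
  have l4 : (fun y => y 0) =ᶠ[𝓝 (ec (k + 1) x x)] loc (c x) G :=
    ((cont_symm hc.mem).continuousAt.eventually ((H.ad x).opn.mem_nhds
      (hc.eq.symm ▸ H.mem x))).mono fun y hy => by
        have := ((H.ad x).eq.resolve_right fun l => (l _ (H.mem x)).1.ne' l0) _ hy
        rwa [right_inv hc.mem] at this
  have l5 := ht _ l0
  rw [← hc.eq, ← thetaPlus_rep X.met hc.mem X.K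
    (cAt_of_loc two_le_oo hc.mem ((hG _ hc.mem).of_le two_le_oo).contDiffAt),
    ← P366SB.theta_congr (EventuallyEq.refl _ _) rfl l4,
    ← theta_half (ec_mem x x) h1.1 (X.met.sm _ hc.mem) l2 l3] at l5
  exact l5

theorem Rg.area [MeasurableSpace Ω] [BorelSpace Ω] :
    St.bdArea {x | 0 ≤ G (κ x)} D.g ≤ X.area G := by
  obtain ⟨μ, h1, h2⟩ := exists_mu X hG
  have hm := h.mod.emb.measurableEmbedding
  refine le_trans (Measure.le_iff'.1 (iSup_le (a := μ.comap κ) fun p =>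
    Measure.le_iff.2 fun A hA => ?_) univ) ?_
  · have e := H.ad p
    have l0 : ∀ z, face z ∈ Hs (k + 1) := fun z => mem_Hs.2 le_rfl
    have l1 : face ⁻¹' (St.crd (k + 1) p).target = fc (c p) ⁻¹' s p :=
      Set.ext fun z => H.tgt (l0 z)
    have l2 : ∀ z, fc (c p) z ∈ s p → κ (St.par _ p (face z)) = fc (c p) z := fun z hz =>
      H.symm ((H.tgt (l0 z)).2 hz)
    have l3 := (cont_fc e.mem).measurable e.opn.measurableSet
    have l4 : (fun z => St.par _ p (face z)) ⁻¹' A ∩ fc (c p) ⁻¹' s p =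
        fc (c p) ⁻¹' (κ '' A ∩ s p) := by
      ext z
      refine and_congr_left fun hz => ?_
      rw [← l2 z hz, hm.injective.mem_set_image, mem_preimage]
    have l5 := hm.measurableSet_image' hA
    have l6 : ContinuousOn (fun z => St.par _ p (face z)) (fc (c p) ⁻¹' s p) :=
      h.mod.emb.isInducing.continuousOn_iff.2 ((cont_fc e.mem).continuousOn.congr l2)
    rw [hm.comap_apply, l1, Measure.map_apply_of_aemeasurable (l6.aemeasurable l3) hA,
      Measure.restrict_apply' l3, l4, withDensity_apply _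
        ((cont_fc e.mem).measurable (l5.inter e.opn.measurableSet)), P366Z.vol_eq]
    refine le_trans (le_of_eq ?_) (Measure.le_iff'.1 (h1 _ _ e) _)
    rw [sg_apply e l5]
    refine setLIntegral_congr_fun ((cont_fc e.mem).measurable (l5.inter e.opn.measurableSet))
      fun z hz => ?_
    simp only [hd, P366Z.dens]
    congr 3
    ext a b
    exact (congrFun (congrFun (H.sub h.mod h.g ((H.tgt (l0 z)).2 hz.2)) _) _).trans
      (pl_fc e.mem z a b).symm
  · rw [hm.comap_apply]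
    exact (measure_mono (subset_univ _)).trans h2

end

omit hG

theorem acut [MeasurableSpace Ω] [BorelSpace Ω] : D.Acut ≤ X.Amin :=
  le_sInf fun _ ⟨_, h1, h2, h3⟩ => by
    obtain ⟨C, c, s, _, H⟩ := (em h h2).exists_rg h1
    exact sInf_le_of_le ⟨_, C, H.encl h h1 h2, rfl⟩ (h3 ▸ H.area h h1)

theorem outer (ho : D.Outer) : P366DV.Outer X := by
  rintro ⟨G, g1, g2, g3⟩
  have h2 := fun z hz => (g2 z hz).le
  obtain ⟨C, c, s, _, H⟩ := (em h h2).exists_rg g1
  exact ho ⟨_, C, H.encl h g1 h2, fun x _ => (P366SB.pos_iff h).1 (g2 _ x.2), H.trapped h g1.1 g3⟩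

end Vale.Agent.P366W19
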