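import Vale.Agent.P366F.Stmt

/-!
# P366: enclosing cuts as boundaries of submanifolds with boundary, and their areas
-/

open MeasureTheory Filter Topology Set Manifold
open scoped ContDiff ENNReal
open Vale.Agent.P366.Stmt

noncomputable section

namespace Vale.Agent.P366N.St

variable {k : ℕ} {Ω : Type} [TopologicalSpace Ω] [ChartedSpace (EuclideanHalfSpace (k + 1)) Ω]

/-- The point `(0, z)` of the boundary hyperplane of the half-space. -/
def face (z : E k) : E (k + 1) := WithLp.toLp 2 (Fin.cons (α := fun _ => ℝ) 0 z)

section Sub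

variable (N : Set Ω) [ChartedSpace (EuclideanHalfSpace (k + 1)) N]

/-- The inverse of the chart of `N` at `p`, as a map into `Ω`. -/
def par (p : N) (y : E (k + 1)) : Ω := ((crd (k + 1) p).symm y : N)

/-- The components of the restriction of `T` to `N`, in the chart of `N` at `p`. -/
def inSub (T : Tensor (k + 1) Ω) (p : N) : P366.Stmt.Field (k + 1) := comps T (par N p) (half (k + 1))

/-- The components of the metric induced on the boundary of `N`, in the chart `z ↦ (0, z)`. -/
def onFace (g : Tensor (k + 1) Ω) (p : N) : P366.Stmt.Field k := fun z a b =>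
  inSub N g p (face z) a.succ b.succ

/-- The `g`-area of the boundary of `N`: the total mass of the least measure that dominates, for
every chart, Lebesgue measure on the boundary hyperplane with the density `√ det h` of the
induced metric `h`. -/
def bdArea [MeasurableSpace Ω] (g : Tensor (k + 1) Ω) : ℝ≥0∞ :=
  (⨆ p : N, (((vol k).withDensity fun z => ENNReal.ofReal √(mat (onFace N g p) z).det).restrict
    (face ⁻¹' (crd (k + 1) p).target)).map fun z => par N p (face z)) univ

/-- The inclusion of `N` is smooth with injective differential. -/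
def Immersed : Prop := ContMDiff (𝓡∂ (k + 1)) (𝓡∂ (k + 1)) ∞ (Subtype.val : N → Ω) ∧
  ∀ x, Function.Injective (mfderiv (𝓡∂ (k + 1)) (𝓡∂ (k + 1)) (Subtype.val : N → Ω) x)

/-- `G` is a smooth field on the coordinate space which extends the components of the restriction
of `T` in the chart of `N` at `x` near the point `x`. -/
def RepSub (T : Tensor (k + 1) Ω) (x : N) (G : P366.Stmt.Field (k + 1)) : Prop :=
  (∀ i j, Smooth fun y => G y i j) ∧
    ∀ᶠ y in 𝓝[half (k + 1)] (crd (k + 1) x x), G y = inSub N T x y

namespace Data

variable (D : Data (k + 1) Ω)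

/-- `N` is a connected smooth submanifold with boundary of codimension zero, closed in `Ω`, with
compact boundary and interior in the interior of `Ω`, which contains the end outside some
coordinate sphere. Its boundary is an enclosing cut. -/
def Encl : Prop := IsManifold (𝓡∂ (k + 1)) ∞ N ∧ Immersed N (k := k) ∧ IsConnected N ∧
  IsClosed N ∧ IsCompact (bdry (k + 1) N) ∧
  (∀ x : N, x ∉ bdry (k + 1) N → x.1 ∉ bdry (k + 1) Ω) ∧ ∃ R, ∀ y, R < len y → D.φ y ∈ N

/-- The boundary of `N` is weakly future trapped. -/
def TrappedCut : Prop := ∀ x ∈ bdry (k + 1) N, ∀ G L, RepSub N D.g x G → RepSub N D.K x L →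
  thetaPlus G L (fun y => y 0) (crd (k + 1) x x) ≤ 0

end Data

end Sub

namespace Data

variable (D : Data (k + 1) Ω)

/-- `A_min`: the infimum of the areas of the enclosing cuts. -/
def Acut [MeasurableSpace Ω] : ℝ≥0∞ :=
  sInf {a | ∃ (N : Set Ω) (_ : ChartedSpace (EuclideanHalfSpace (k + 1)) N),
    D.Encl N ∧ a = bdArea N D.g}

/-- No weakly future trapped enclosing cut lies in the interior of `Ω`. -/
def Outer : Prop := ¬∃ (N : Set Ω) (_ : ChartedSpace (EuclideanHalfSpace (k + 1)) N),
  D.Encl N ∧ (∀ x ∈ bdry (k + 1) N, x.1 ∉ bdry (k + 1) Ω) ∧ D.TrappedCut N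

end Data

end Vale.Agent.P366N.St
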