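import Vale.Agent.P366W19.Cut
import Vale.Agent.P366F.Main

/-!
# P366W19: the final statement with literal cuts
-/

open Manifold
open scoped ContDiff
open Vale.Agent.P366 Vale.Agent.P366M Vale.Agent.P366N Vale.Agent.P366F
open Vale.Agent.P366K (rep_)
open Vale.Agent.P366RY (conf)

namespace Vale.Agent.P366W19

theorem eqm : EQM :=
  eqm_of (kout2 Top.full P366K.nd (P366CU.loc_of P366RB.reg (P366RB.regb_of P366AP.apr P366K2.bdm)
    P366RB.smo (P366RB.wsy P366RY.coef) rep_) (P366K3.cpos conf rep_) (P366K3.okk conf rep_))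
    P366SB.sysF P366SB.bnd P366EN.ncc P366EN.vac cmp out P366XR.v1 P366IV.v2 P366HP.pan P366HB.hd
    P366ST.s1 P366HB.lim s2 P366HB.edge (P366NW.s3a_of (P366NW.iso_of P366DV.dev) P366FN.fin) s3b

theorem final (k : ℕ) (hk : 2 ≤ k) (Ω : Type) [TopologicalSpace Ω] [T2Space Ω]
    [ConnectedSpace Ω] [ChartedSpace (EuclideanHalfSpace (k + 1)) Ω] [IsManifold (𝓡∂ (k + 1)) ∞ Ω]
    [MeasurableSpace Ω] [BorelSpace Ω] (D : St.Data (k + 1) Ω) (h1 : D.IsAF) (h2 : D.DEC)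
    (h3 : D.Trapped) (m : ℝ) (P : Fin (k + 1) → ℝ) (h4 : D.IsEnergy m) (h5 : D.IsMomentum P) :
    D.Acut ≠ ⊤ ∧ √(∑ i, P i ^ 2) < m ∧
      (D.Acut.toReal / Stmt.omega (k + 1)) ^ (((k : ℝ) - 1) / k) / 2 ≤ √(m ^ 2 - ∑ i, P i ^ 2) ∧
      (D.Marginal → D.Outer →
        (D.Acut.toReal / Stmt.omega (k + 1)) ^ (((k : ℝ) - 1) / k) / 2 = √(m ^ 2 - ∑ i, P i ^ 2) →
          D.IsSlice √(m ^ 2 - ∑ i, P i ^ 2)) := by
  have hn : 3 ≤ k + 1 := by omega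
  obtain ⟨Y, R, y1, y2⟩ := Data.exists_end (D := D.old) hn h1
  obtain ⟨M, _, κ, hκ⟩ := y1.mod D.old.bdry
  rw [funext y2] at hκ
  obtain ⟨X, h⟩ := hκ.pk
  obtain ⟨k1, k2, k3⟩ := Top.full _ M X m P hn (h.af h1) (h.dec h2) (h.trapped h3) (h.energy h4)
    (h.momentum h5)
  have l6 : (2 : ℝ) ≤ k := by exact_mod_cast hk
  have l7 : 0 ≤ Stmt.omega (k + 1) := mul_nonneg (by positivity)
    (MeasureTheory.integral_nonneg fun _ => zero_le_one)
  have l8 : ((k : ℝ) - 1) / k = (((k + 1 : ℕ) : ℝ) - 2) / ((k + 1 : ℕ) - 1) := by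
    push_cast
    congr 1 <;> ring
  have l9 : (D.Acut.toReal / Stmt.omega (k + 1)) ^ (((k : ℝ) - 1) / k) / 2 ≤
      (X.Amin.toReal / Stmt.omega (k + 1)) ^ ((((k + 1 : ℕ) : ℝ) - 2) / ((k + 1 : ℕ) - 1)) / 2 := by
    rw [← l8]
    exact div_le_div_of_nonneg_right (Real.rpow_le_rpow (div_nonneg ENNReal.toReal_nonneg l7)
      (div_le_div_of_nonneg_right (ENNReal.toReal_mono k1 (acut h)) l7)
      (div_nonneg (by linarith) (by linarith))) zero_le_two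
  exact ⟨ne_top_of_le_ne_top k1 (acut h), k2, l9.trans k3, fun m1 m2 m3 =>
    P366SB.slice h (eqm _ M X m P ⟨hn, h.af h1, h.dec h2, P366SB.marginal h m1, h.energy h4,
      h.momentum h5, le_antisymm k3 (m3 ▸ l9)⟩ (outer h m2))⟩

end Vale.Agent.P366W19
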