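import Vale.Agent.P366W19.Defs
import Vale.Agent.P366Z.Int
import Vale.Agent.P366D.Map
import Mathlib.MeasureTheory.Integral.IntegralEqImproper

/-!
# P366W19: the divergence theorem on the half-space
-/

open MeasureTheory Filter Topology Set Metric
open scoped ContDiff
open Vale.Agent.P366.Stmt Vale.Agent.P366 Vale.Agent.P366N.St

noncomputable section

namespace Vale.Agent.P366W19

variable {k : ℕ}

/-- the point with the first coordinate `t` and the other coordinates `z` -/
def cns (p : ℝ × E k) : E (k + 1) := WithLp.toLp 2 (Fin.cons (α := fun _ => ℝ) p.1 p.2)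

/-- the last coordinates -/
def tl (y : E (k + 1)) : E k := WithLp.toLp 2 fun a => y a.succ

@[simp] theorem cns_zero (p : ℝ × E k) : cns p 0 = p.1 := rfl

@[simp] theorem cns_succ (p : ℝ × E k) (a : Fin k) : cns p a.succ = p.2 a := rfl

@[simp] theorem face_zero (z : E k) : face z 0 = 0 := rfl

@[simp] theorem face_succ (z : E k) (a : Fin k) : face z a.succ = z a := rfl

theorem tl_face (z : E k) : tl (face z) = z := rfl

theorem face_tl {y : E (k + 1)} (h : y 0 = 0) : face (tl y) = y := by
  ext i
  refine Fin.cases h.symm (fun a => rfl) i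

theorem cd_cns : ContDiff ℝ ∞ (cns (k := k)) := by
  refine contDiff_euclidean.2 fun i => Fin.cases contDiff_fst (fun a => ?_) i
  exact (P366Z.contDiff_coord a).comp contDiff_snd

theorem cd_face : ContDiff ℝ ∞ (face (k := k)) := cd_cns.comp (contDiff_prodMk_right (0 : ℝ))

theorem cd_tl : ContDiff ℝ ∞ (tl (k := k)) :=
  contDiff_euclidean.2 fun a => P366Z.contDiff_coord a.succ

/-- the splitting as a measurable equivalence -/
def spl (k : ℕ) : ℝ × E k ≃ᵐ E (k + 1) :=
  ((MeasurableEquiv.refl ℝ).prodCongr (MeasurableEquiv.toLp 2 (Fin k → ℝ)).symm).trans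
    ((MeasurableEquiv.piFinSuccAbove (fun _ => ℝ) 0).symm.trans
      (MeasurableEquiv.toLp 2 (Fin (k + 1) → ℝ)))

theorem spl_eq : (spl k : ℝ × E k → E (k + 1)) = cns := by
  funext p
  ext i
  refine Fin.cases rfl (fun a => ?_) i
  simp [spl, MeasurableEquiv.prodCongr]

theorem mp_cns : MeasurePreserving (cns (k := k)) ((volume : Measure ℝ).prod volume) volume := by
  rw [← spl_eq]
  exact (PiLp.volume_preserving_toLp _).comp
    (((volume_preserving_piFinSuccAbove (fun _ : Fin (k + 1) => ℝ) 0).symm _).comp
      ((MeasurePreserving.id _).prod (PiLp.volume_preserving_ofLp _)))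

theorem emb_cns : MeasurableEmbedding (cns (k := k)) := spl_eq ▸ (spl k).measurableEmbedding

theorem one_dir {f : E (k + 1) → ℝ} (hf : ContDiff ℝ 1 f) (hc : HasCompactSupport f)
    (i : Fin (k + 1)) : ∫ y in {y : E (k + 1) | 0 ≤ y 0}, pd i f y =
      if i = 0 then -∫ z, f (face z) else 0 := by
  have h1 : Integrable (pd i f) := (P366Z.contDiff_pd (k := 0) hf (by simp) i).continuous
    |>.integrable_of_hasCompactSupport (hc.mono' fun y hy => by_contra fun l => hy (by
      rw [P366Z.pd_congr (notMem_tsupport_iff_eventuallyEq.1 l)]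
      exact P366Z.pd_const 0 i y))
  have h2 : Integrable (fun p => pd i f (cns p))
      (((volume : Measure ℝ).restrict (Ici 0)).prod (volume : Measure (E k))) := by
    rw [← Measure.restrict_univ (μ := (volume : Measure (E k))), Measure.prod_restrict]
    exact ((mp_cns.integrable_comp_emb emb_cns).2 h1).integrableOn
  obtain ⟨R, hR⟩ := hc.isCompact.isBounded.subset_closedBall 0
  have h3 : ∀ p j, R < |cns p j| → f (cns p) = 0 := fun p j h =>
    image_eq_zero_of_notMem_tsupport fun l => h.not_ge
      ((PiLp.norm_apply_le (cns p) j).trans (mem_closedBall_zero_iff.1 (hR l)))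
  rw [← mp_cns.setIntegral_preimage_emb emb_cns,
    show cns ⁻¹' {y : E (k + 1) | 0 ≤ y 0} = Ici 0 ×ˢ univ from by ext p; simp,
    ← Measure.prod_restrict, Measure.restrict_univ]
  refine Fin.cases (motive := fun i => Integrable (fun p => pd i f (cns p)) _ →
    ∫ p, pd i f (cns p) ∂_ = if i = 0 then _ else _) (fun h2 => ?_) (fun a h2 => ?_) i h2
  · rw [integral_prod_symm _ h2, if_pos rfl, ← integral_neg]
    refine integral_congr_ae (.of_forall fun z => ?_)
    have e : ∀ t s : ℝ, cns (t + s, z) = cns (t, z) + s • EuclideanSpace.single 0 1 := fun t s => by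
      ext j
      refine Fin.cases (by simp) (fun b => by simp) j
    have e' : (fun t => pd 0 f (cns (t, z))) = deriv fun t => f (cns (t, z)) := funext fun t => by
      rw [pd, lineDeriv, ← add_zero t, ← deriv_comp_const_add (fun t => f (cns (t, z))), add_zero]
      simp only [e]
    beta_reduce
    rw [integral_Ici_eq_integral_Ioi, e']
    exact HasCompactSupport.integral_Ioi_deriv_eq
      (hf.comp ((cd_cns.of_le (by simp)).comp (contDiff_prodMk_left z)))
      (HasCompactSupport.intro (isCompact_closedBall 0 R) fun t ht => h3 _ 0 (by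
        simpa using ht)) 0
  · rw [integral_prod _ h2, if_neg (Fin.succ_ne_zero a)]
    refine (integral_congr_ae (.of_forall fun t => ?_)).trans (integral_zero _ _)
    have e : ∀ (z : E k) (s : ℝ), cns (t, z + s • EuclideanSpace.single a 1) =
        cns (t, z) + s • EuclideanSpace.single a.succ 1 := fun z s => by
      ext j
      refine Fin.cases (by simp) (fun b => by simp) j
    have e' : (fun z => pd a.succ f (cns (t, z))) = pd a fun z => f (cns (t, z)) :=
      funext fun z => by simp only [pd, lineDeriv, e]
    have h4 : HasCompactSupport fun z => f (cns (t, z)) := by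
      refine HasCompactSupport.intro (isCompact_closedBall 0 R) fun z hz =>
        image_eq_zero_of_notMem_tsupport fun l => hz (mem_closedBall_zero_iff.2
          (le_trans ?_ (mem_closedBall_zero_iff.1 (hR l))))
      rw [EuclideanSpace.norm_eq, EuclideanSpace.norm_eq, Fin.sum_univ_succ]
      exact Real.sqrt_le_sqrt (le_add_of_nonneg_left (sq_nonneg _))
    have h5 := hf.comp ((cd_cns.of_le (by simp)).comp (contDiff_prodMk_right t))
    beta_reduce
    rw [e']
    exact P366Z.integral_pd (P366Z.lip_of_supp h5 h4) h4 a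

/-- **the divergence theorem on the half-space** -/
theorem half_div {W : Fin (k + 1) → E (k + 1) → ℝ} (hW : ∀ i, ContDiff ℝ 1 (W i))
    (hc : ∀ i, HasCompactSupport (W i)) :
    ∫ y in {y : E (k + 1) | 0 ≤ y 0}, ∑ i, pd i (W i) y = -∫ z, W 0 (face z) := by
  rw [integral_finsetSum _ fun i _ => ?_]
  · simp [one_dir (hW _) (hc _)]
  · exact ((P366Z.contDiff_pd (k := 0) (hW i) (by simp) i).continuous
      |>.integrable_of_hasCompactSupport ((hc i).mono' fun y hy => by_contra fun l => hy (by
        rw [P366Z.pd_congr (notMem_tsupport_iff_eventuallyEq.1 l)]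
        exact P366Z.pd_const 0 i y))).integrableOn

theorem jac_face (z : E k) (i : Fin (k + 1)) (a : Fin k) :
    P366M.jac face z i a = if i = a.succ then 1 else 0 := by
  refine Fin.cases ?_ (fun b => ?_) i
  · simp [P366M.jac, P366Z.pd_const, (Fin.succ_ne_zero a).symm]
  · simp [P366M.jac, P366Z.pd_coord, eq_comm]

theorem pb_face (G : Stmt.Field (k + 1)) (z : E k) (a b : Fin k) :
    P366D.pb face G z a b = G (face z) a.succ b.succ := by
  simp [P366D.pb, jac_face]

/-- the determinant of the tangential block -/
theorem det_block {A : Matrix (Fin (k + 1)) (Fin (k + 1)) ℝ} (h : A.det ≠ 0) :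
    A.det * A⁻¹ 0 0 = (A.submatrix Fin.succ Fin.succ).det := by
  rw [Matrix.inv_def, Matrix.smul_apply, Matrix.adjugate_fin_succ_eq_det_submatrix,
    Ring.inverse_eq_inv, smul_eq_mul, ← mul_assoc, mul_inv_cancel₀ h]
  simp

end Vale.Agent.P366W19
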