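import Vale.Agent.P366W19.Ad
import Vale.Agent.P366N.Ext2

/-!
# P366W19: the region is a manifold with boundary
-/

open Filter Topology Set Metric Function Manifold
open scoped ContDiff
open Vale.Agent.P366.Stmt (E)
open Vale.Agent.P366 Vale.Agent.P366M Vale.Agent.P366N

noncomputable section

namespace Vale.Agent.P366W19

variable {k : ℕ} {M : Type} [Mfe (k + 1) M] {G : M → ℝ} {e : Ch (k + 1) M} {s : Set M}

section Abs

variable {N : Type} [TopologicalSpace N] {ι : N → M}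

/-- `ι` embeds `N` onto the region `{0 ≤ G}` -/
structure Em (G : M → ℝ) (ι : N → M) : Prop where
  emb : IsEmbedding ι
  rng : ∀ z, 0 ≤ G z ↔ z ∈ range ι

theorem Em.half (H : Em G ι) (h : Ad G e s) {x : N} (hx : ι x ∈ s) :
    (𝓡∂ (k + 1)) ((𝓡∂ (k + 1)).symm (e (ι x))) = e (ι x) :=
  (𝓡∂ (k + 1)).right_inv (mem_Hs.2 ((h.le hx).1 ((H.rng _).2 ⟨x, rfl⟩)))

theorem Em.mem (H : Em G ι) (h : Ad G e s) {y : E (k + 1)} (hy : y ∈ Hs (k + 1))
    (hs : e.symm y ∈ s) : e.symm y ∈ range ι :=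
  (H.rng _).1 ((h.le hs).2 (by rw [right_inv h.mem]; exact mem_Hs.1 hy))

/-- the chart of the region -/
def Em.cht [Nonempty N] (H : Em G ι) (h : Ad G e s) :
    OpenPartialHomeomorph N (EuclideanHalfSpace (k + 1)) where
  toFun x := (𝓡∂ (k + 1)).symm (e (ι x))
  invFun y := invFun ι (e.symm ((𝓡∂ (k + 1)) y))
  source := ι ⁻¹' s
  target := {y | e.symm ((𝓡∂ (k + 1)) y) ∈ s}
  map_source' x hx := by
    show e.symm _ ∈ s
    rwa [H.half h hx, e.left_inv (h.sub hx)]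
  map_target' y hy := by
    show ι _ ∈ s
    rwa [invFun_eq (H.mem h (mem_range_self y) hy)]
  left_inv' x hx := by
    rw [H.half h hx, e.left_inv (h.sub hx), leftInverse_invFun H.emb.injective]
  right_inv' y hy := by
    rw [invFun_eq (H.mem h (mem_range_self y) hy), right_inv h.mem, (𝓡∂ (k + 1)).left_inv]
  open_source := h.opn.preimage H.emb.continuous
  open_target := h.opn.preimage ((cont_symm h.mem).comp (𝓡∂ (k + 1)).continuous)
  continuousOn_toFun := (𝓡∂ (k + 1)).continuous_symm.comp_continuousOn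
    (e.continuousOn.comp H.emb.continuous.continuousOn fun _ hx => h.sub hx)
  continuousOn_invFun := H.emb.isInducing.continuousOn_iff.2
    (((cont_symm h.mem).comp (𝓡∂ (k + 1)).continuous).continuousOn.congr fun y hy =>
      invFun_eq (H.mem h (mem_range_self y) hy))

/-- the charts of `N` are adapted charts -/
structure Rg (G : M → ℝ) (ι : N → M) [ChartedSpace (EuclideanHalfSpace (k + 1)) N]
    (c : N → Ch (k + 1) M) (s : N → Set M) : Prop where
  em : Em G ι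
  ad : ∀ p, Ad G (c p) (s p)
  src : ∀ p x, x ∈ (ec (k + 1) p).source ↔ ι x ∈ s p
  eq : ∀ p x, ι x ∈ s p → ec (k + 1) p x = c p (ι x)

theorem Em.exists_rg (H : Em G ι) (hG : IsExt G) :
    ∃ (_ : ChartedSpace (EuclideanHalfSpace (k + 1)) N) (c : N → Ch (k + 1) M) (s : N → Set M),
      IsManifold (𝓡∂ (k + 1)) ∞ N ∧ Rg G ι c s := by
  obtain ⟨z, hz⟩ := hG.2.2.1.nonempty
  obtain ⟨x₀, -⟩ := (H.rng z).1 hz
  have : Nonempty N := ⟨x₀⟩
  choose c s h1 h2 using fun p : N => exists_ad hG.1 hG.2.1 ((H.rng _).2 ⟨p, rfl⟩)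
  let C : ChartedSpace (EuclideanHalfSpace (k + 1)) N :=
    ⟨range fun p => H.cht (h1 p), fun p => H.cht (h1 p), h2, fun p => ⟨p, rfl⟩⟩
  refine ⟨C, c, s, isManifold_of_contDiffOn _ _ _ ?_, H, h1,
    fun p x => by rw [src_eq]; rfl, fun p x hx => H.half (h1 p) hx⟩
  rintro _ _ ⟨p, rfl⟩ ⟨q, rfl⟩
  have key : ∀ y ∈ (𝓡∂ (k + 1)).symm ⁻¹' ((H.cht (h1 p)).symm ≫ₕ H.cht (h1 q)).source ∩
      range (𝓡∂ (k + 1)), ι ((H.cht (h1 p)).symm ((𝓡∂ (k + 1)).symm y)) = (c p).symm y ∧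
        (c p).symm y ∈ s q := fun y hy => by
    have l1 : ι ((H.cht (h1 p)).symm ((𝓡∂ (k + 1)).symm y)) = (c p).symm y :=
      (invFun_eq (H.mem (h1 p) (mem_range_self _) hy.1.1)).trans
        (by rw [(𝓡∂ (k + 1)).right_inv hy.2])
    exact ⟨l1, l1 ▸ hy.1.2⟩
  refine ContDiffOn.congr (f := tm (c p) (c q)) (fun y hy => (tm_cd (h1 p).mem (h1 q).mem
    ((h1 q).sub (key y hy).2)).contDiffWithinAt) fun y hy => ?_
  exact (H.half (h1 q) ((key y hy).1 ▸ (key y hy).2)).trans (congrArg (c q) (key y hy).1)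

variable [ChartedSpace (EuclideanHalfSpace (k + 1)) N] {c : N → Ch (k + 1) M} {s : N → Set M}
  (H : Rg G ι c s) {p x : N}
include H

theorem Rg.mem (x : N) : ι x ∈ s x := (H.src x x).1 (mem_extChartAt_source x)

theorem Rg.adp (hx : x ∈ (ec (k + 1) p).source) : Adp ι p x (c p) :=
  ⟨hx, (H.ad p).mem, mem_of_superset (extChartAt_source_mem_nhds' hx) fun z hz => by
    show (c p).symm _ = _
    rw [H.eq p z ((H.src p z).1 hz), (c p).left_inv ((H.ad p).sub ((H.src p z).1 hz))]⟩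

theorem Rg.symm {y : E (k + 1)} (hy : y ∈ (ec (k + 1) p).target) :
    ι ((ec (k + 1) p).symm y) = (c p).symm y := by
  rw [← (H.adp ((ec (k + 1) p).map_target hy)).eq, (ec (k + 1) p).right_inv hy]

theorem Rg.tgt {y : E (k + 1)} (hy : y ∈ Hs (k + 1)) :
    y ∈ (ec (k + 1) p).target ↔ (c p).symm y ∈ s p := by
  refine ⟨fun h => H.symm h ▸ (H.src _ _).1 ((ec (k + 1) p).map_target h), fun h => ?_⟩
  obtain ⟨x, hx⟩ := H.em.mem (H.ad p) hy h
  have := (ec (k + 1) p).map_source ((H.src p x).2 (hx ▸ h))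
  rwa [H.eq p x (hx ▸ h), hx, right_inv (H.ad p).mem] at this

theorem Rg.bd [IsManifold (𝓡∂ (k + 1)) ∞ N] (x : N) : x ∈ bd (k + 1) N ↔ G (ι x) = 0 := by
  rw [bd_iff (mem_extChartAt_source x), H.eq x x (H.mem x), (H.ad x).zero (H.mem x)]

theorem Rg.inj [IsManifold (𝓡∂ (k + 1)) ∞ N] (x : N) : Injective (Bk ι x) := by
  have h := H.adp (mem_extChartAt_source x)
  refine (injective_iff_map_eq_zero _).2 fun v hv => ?_
  have h1 := h.bk v
  rw [hv] at h1
  have h2 : De x x v = 0 := (WithLp.ofLp_injective 2)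
    (Matrix.eq_zero_of_mulVec_eq_zero (J_unit h.mem _).ne_zero h1.symm)
  rw [← Ds_De h.src v, h2, map_zero]

end Abs

variable {Ω : Type} [TopologicalSpace Ω] [ChartedSpace (EuclideanHalfSpace (k + 1)) Ω]
  [IsManifold (𝓡∂ (k + 1)) ∞ Ω] {κ : Ω → M} {Φ : E (k + 1) → Ω} {N : Set Ω}
  [ChartedSpace (EuclideanHalfSpace (k + 1)) N] [IsManifold (𝓡∂ (k + 1)) ∞ N]
  {c : N → Ch (k + 1) M} {s : N → Set M} (H : Rg G (fun x : N => κ x) c s) (h : Mod (k + 1) κ Φ)
include H h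

omit [IsManifold (𝓡∂ (k + 1)) ∞ Ω] in
theorem Rg.cmd : ContMDiff (𝓡∂ (k + 1)) (𝓡∂ (k + 1)) ∞ (Subtype.val : N → Ω) := fun x => by
  obtain ⟨b, hb⟩ := h.ex (mem_extChartAt_source (I := 𝓡∂ (k + 1)) x.1)
  have h1 := H.adp (mem_extChartAt_source x)
  refine contMDiffAt_iff_target.2 ⟨continuous_subtype_val.continuousAt,
    cmd_of (F := tm (c x) b) h1.src ?_ (tm_cd h1.mem hb.mem (h1.eq ▸ hb.mem_src))⟩
  filter_upwards [h1.ev, continuous_subtype_val.continuousAt.eventually hb.near] with z l1 l2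
  rw [tm, l1, l2.app]
  rfl

theorem Rg.bk (x : N) (v : E (k + 1)) : Bk (fun x : N => κ x) x v =
    Bk κ x.1 (mfderiv (𝓡∂ (k + 1)) (𝓡∂ (k + 1)) (Subtype.val : N → Ω) x v) := by
  obtain ⟨b, hb⟩ := h.ex (mem_extChartAt_source (I := 𝓡∂ (k + 1)) x.1)
  exact DFunLike.congr_fun (mfderiv_comp x hb.has.mdifferentiableAt
    ((H.cmd h x).mdifferentiableAt (by simp))) v

theorem Rg.imm : St.Immersed N (k := k) := ⟨H.cmd h, fun x a b hab => H.inj x
  ((H.bk h x a).trans ((congrArg _ hab).trans (H.bk h x b).symm))⟩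

/-- the components of the restriction -/
theorem Rg.sub {T : St.Tensor (k + 1) Ω} {S : Fld (k + 1) M} (hT : ∀ x, Rl κ T x (S (κ x)))
    {p : N} {y : E (k + 1)} (hy : y ∈ (ec (k + 1) p).target) :
    St.inSub N T p y = rep (c p) S y := by
  let A : N → E (k + 1) →L[ℝ] E (k + 1) := fun x =>
    mfderiv (𝓡∂ (k + 1)) (𝓡∂ (k + 1)) (Subtype.val : N → Ω) x
  let B : N → E (k + 1) →L[ℝ] E (k + 1) →L[ℝ] ℝ := fun x => (tv T x.1).bilinearComp (A x) (A x)
  let T' : Tensor (k + 1) N := B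
  have h1 := (H.adp ((ec (k + 1) p).map_target hy)).rl (T := T') (G := S) |>.1 fun v w => by
    rw [H.bk h, H.bk h]
    exact hT _ _ _
  rw [(ec (k + 1) p).right_inv hy] at h1
  rw [h1]
  have h2 : mfderivWithin (𝓡 (k + 1)) (𝓡∂ (k + 1)) (St.par N p) (Hs (k + 1)) y =
      (mfderiv (𝓡∂ (k + 1)) (𝓡∂ (k + 1)) (Subtype.val : N → Ω) ((ec (k + 1) p).symm y)).comp
        (mfderivWithin (𝓡 (k + 1)) (𝓡∂ (k + 1)) (ec (k + 1) p).symm (Hs (k + 1)) y) :=
    mfderiv_comp_mfderivWithin y ((H.cmd h _).mdifferentiableAt (by simp))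
      (mdifferentiableWithinAt_extChartAt_symm hy)
      ((𝓡∂ (k + 1)).uniqueMDiffOn y (extChartAt_target_subset_range p hy))
  funext i j
  show tv T (St.par N p y) (mfderivWithin (𝓡 (k + 1)) (𝓡∂ (k + 1)) (St.par N p) (Hs (k + 1)) y _)
    (mfderivWithin (𝓡 (k + 1)) (𝓡∂ (k + 1)) (St.par N p) (Hs (k + 1)) y _) = _
  rw [h2]
  rfl

end Vale.Agent.P366W19
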